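import Vale.Agent.Lib.P249.helper62.GridDefs
import Vale.Agent.Lib.P249.helper3.Tensor

/-!
# P249 grid lower bound (helper62, report 1926), pool job 231 = GRID-E: `grid_pair`

Backup copy by helper38.  `grid_pair_of_one` derives the pair form of the grid concentration
inequality from the one-coordinate inequality `grid_one` (taken as a hypothesis `GridOne M`)
by the abstract tensorization `tensor`.
-/

namespace Vale.Agent.Lib.P249.H38g

open Finset
open Vale.Agent.Lib.P249.H62

/-- The statement of the one-coordinate inequality (pool job 229, `grid_one`) for a fixed `M`. -/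
def GridOne (M : ℕ) : Prop :=
  ∀ (a b : Fin (2 * M + 1) → ℝ) (N : ℝ),
    (∀ t, 0 ≤ a t) → (∀ t, 0 ≤ b t) → 0 ≤ N →
    (∀ t t', b t * a t' ≤ N * Real.exp ((gv M t - gv M t') ^ 2 / (2 * (M : ℝ) ^ 2))) →
    (∑ t, gphi M t * b t) * (∑ t, gphi M t * a t) ≤ N * (gZ M + 1) ^ 2

/-- Pair form of the grid concentration inequality, from the one-coordinate inequality. -/
theorem grid_pair_of_one (M : ℕ) (h1 : GridOne M) (k : ℕ)
    (f g : (Fin k → Fin (2 * M + 1)) → ℝ)
    (h : ∀ x y, g x ≤ f y + gdist2 M k x y / (2 * (M : ℝ) ^ 2)) :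
    (∑ x, gPhi M k x * Real.exp (g x)) * (∑ y, gPhi M k y * Real.exp (-f y))
      ≤ (gZ M + 1) ^ (2 * k) := by
  have hφ : ∀ t, 0 ≤ gphi M t := fun t => (Real.exp_pos _).le
  have hC1 : (0 : ℝ) ≤ (gZ M + 1) ^ 2 := sq_nonneg _
  have key := Vale.Agent.Lib.P249.H3grid.tensor (gphi M) hφ
    (fun t t' => (gv M t - gv M t') ^ 2 / (2 * (M : ℝ) ^ 2)) ((gZ M + 1) ^ 2) hC1 h1 k
    (fun y => Real.exp (-f y)) (fun x => Real.exp (g x)) 1
    (fun y => (Real.exp_pos _).le) (fun x => (Real.exp_pos _).le) zero_le_one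
    (by
      intro x y
      rw [one_mul, ← Real.exp_add, Real.exp_le_exp, ← Finset.sum_div]
      have := h x y
      unfold gdist2 at this
      linarith)
  rw [one_mul, ← pow_mul] at key
  exact key

end Vale.Agent.Lib.P249.H38g
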